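import Vale.Agent.P133.Sub

/-!
# P133: covering a projection by a kill piece and a saturation defect
-/

namespace Vale.Agent.P133

noncomputable section

variable {B : Type*} [CStarAlgebra B] [PartialOrder B] [StarOrderedRing B]

/-- One below `δ/2`, zero from `δ` on. -/
def g₁ (δ t : ℝ) : ℝ := max 0 (min 1 (2 - 2 * t / δ))

/-- One below `δ/4`, zero from `δ/2` on. -/
def g₂ (δ t : ℝ) : ℝ := max 0 (min 1 (2 - 4 * t / δ))

/-- The regularised inverse off `g₂`. -/
def hF (δ t : ℝ) : ℝ := (1 - g₂ δ t) / max t (δ / 4)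

theorem continuous_g₁ (δ : ℝ) : Continuous (g₁ δ) := by unfold g₁; fun_prop

theorem continuous_g₂ (δ : ℝ) : Continuous (g₂ δ) := by unfold g₂; fun_prop

theorem continuous_hF {δ : ℝ} (hδ : 0 < δ) : Continuous (hF δ) :=
  ((continuous_const.sub (continuous_g₂ δ)).div (by fun_prop) fun t =>
    (lt_of_lt_of_le (by linarith) (le_max_right t _)).ne')

theorem g₂_mem (δ t : ℝ) : g₂ δ t ∈ Set.Icc (0 : ℝ) 1 :=
  ⟨le_max_left _ _, max_le zero_le_one (min_le_left _ _)⟩

theorem g₂_one {δ t : ℝ} (hδ : 0 < δ) (ht : t ≤ δ / 4) : g₂ δ t = 1 := by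
  have : 1 ≤ 2 - 4 * t / δ := by
    rw [le_sub_iff_add_le, ← le_sub_iff_add_le', div_le_iff₀ hδ]; linarith
  rw [g₂, min_eq_left this, max_eq_right zero_le_one]

theorem g₁_g₂ {δ : ℝ} (hδ : 0 < δ) (t : ℝ) : g₁ δ t * g₂ δ t = g₂ δ t := by
  rcases le_total t (δ / 2) with h | h
  · have : 1 ≤ 2 - 2 * t / δ := by
      rw [le_sub_iff_add_le, ← le_sub_iff_add_le', div_le_iff₀ hδ]; linarith
    rw [g₁, min_eq_left this, max_eq_right zero_le_one, one_mul]
  · have : 2 - 4 * t / δ ≤ 0 := by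
      rw [sub_nonpos, le_div_iff₀ hδ]; linarith
    rw [g₂, max_eq_left ((min_le_right _ _).trans this), mul_zero]

theorem g₁_bound {δ t : ℝ} (hδ : 0 < δ) (ht : 0 ≤ t) : |g₁ δ t * t * g₁ δ t| ≤ δ := by
  have h0 : 0 ≤ g₁ δ t := le_max_left _ _
  have h1 : g₁ δ t ≤ 1 := max_le zero_le_one (min_le_left _ _)
  rcases le_total t δ with h | h
  · rw [abs_of_nonneg (by positivity)]
    nlinarith [mul_le_mul h1 h1 h0 zero_le_one]
  · have : 2 - 2 * t / δ ≤ 0 := by rw [sub_nonpos, le_div_iff₀ hδ]; linarith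
    rw [g₁, max_eq_left ((min_le_right _ _).trans this)]
    simp [hδ.le]

theorem t_hF {δ : ℝ} (hδ : 0 < δ) (t : ℝ) : t * hF δ t = 1 - g₂ δ t := by
  rcases le_total t (δ / 4) with h | h
  · simp [hF, g₂_one hδ h]
  · rw [hF, max_eq_left h, mul_div_cancel₀ _ (by linarith : (t : ℝ) ≠ 0)]

theorem hF_bound {δ : ℝ} (hδ : 0 < δ) (t : ℝ) : ‖hF δ t‖ ≤ 4 / δ := by
  have hm : 0 < max t (δ / 4) := lt_of_lt_of_le (by linarith) (le_max_right _ _)
  have := g₂_mem δ t
  rw [hF, Real.norm_of_nonneg (div_nonneg (by linarith [this.2]) hm.le), div_le_div_iff₀ hm hδ]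
  nlinarith [le_max_right t (δ / 4), this.1, this.2]

theorem cfc_hF_norm {δ : ℝ} (hδ : 0 < δ) (a : B) : ‖cfc (hF δ) a‖ ≤ 4 / δ :=
  norm_cfc_le (by positivity) fun t _ => hF_bound hδ t

theorem norm_le_sq {x : B} {L : ℝ} (h : ‖star x * x‖ ≤ L) : ‖x‖ ≤ Real.sqrt L := by
  apply Real.le_sqrt_of_sq_le
  rw [pow_two, ← CStarRing.norm_star_mul_self]
  exact h

/-- The three pieces of the cover: `j = g₂(R)P` is the kill range, `G` the saturation defect. -/
theorem cover {P e B₂ S₁ S₂ : B} {Y δ ρ ε₀ c : ℝ} (hP : IsStarProjection P)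
    (he : IsSelfAdjoint e) (hB : 0 ≤ B₂) (he₁ : e * S₁ = S₁) (he₂ : e * S₂ = S₂)
    (hδ : 0 < δ) (hρ : 0 < ρ) (hε₀ : 0 < ε₀) (hε₁ : ε₀ ≤ 1) (hBY : ‖B₂‖ ≤ Y)
    (h11 : ‖star S₁ * S₁ - B₂‖ ≤ ε₀) (h22 : ‖star S₂ * S₂ - B₂‖ ≤ ε₀)
    (h21 : ‖star S₂ * S₁‖ ≤ ε₀) (hc : 0 < c)
    (hc₁ : 2 * ((2 * Y + 2) * (1 + (Y + 1) * (4 / δ)) ^ 2) * ε₀ ≤ c ^ 2 / 2)
    (hc₂ : 2 * ((Y + 1) * (c + ε₀)) ≤ (δ / 4) ^ 2)
    (R G j : B) (hR : R = P * S₁ * star (P * S₁)) (hG0 : 0 ≤ G)
    (hG : ρ • (e * e) - e * P * e ≤ G) (hj : j = cfc (g₂ δ) R * P)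
    (hS : Split (G + j * j)) :
    Sub P (G + j * j) := by
  have hPs : star P = P := hP.isSelfAdjoint.star_eq
  have hPP : P * P = P := hP.isIdempotentElem.eq
  have hRs : IsSelfAdjoint R := by rw [hR]; exact IsSelfAdjoint.mul_star_self _
  have hR0 : 0 ≤ R := by rw [hR]; exact mul_star_self_nonneg _
  have hRP : R * P = R := by rw [hR, star_mul, hPs]; simp only [mul_assoc, hPP]
  have hPR : P * R = R := by rw [hR]; simp only [← mul_assoc, hPP]
  have hcomm : Commute R P := by rw [Commute, SemiconjBy, hRP, hPR]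
  have hcH : Commute (cfc (hF δ) R) P := hcomm.cfc_real (hF δ)
  have hcg : Commute (cfc (g₂ δ) R) P := hcomm.cfc_real (g₂ δ)
  set H := cfc (hF δ) R with hH
  have hdec : P = j + R * H := by
    have e1 : R * H = 1 - cfc (g₂ δ) R := by
      conv_lhs => enter [1]; rw [← cfc_id' ℝ R]
      rw [hH, ← cfc_mul (fun t : ℝ => t) (hF δ) R continuousOn_id (continuous_hF hδ).continuousOn,
        ← cfc_const_one ℝ R, ← cfc_sub (fun _ : ℝ => (1 : ℝ)) (g₂ δ) R continuousOn_const
          (continuous_g₂ δ).continuousOn]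
      exact cfc_congr fun t _ => t_hF hδ t
    have e2 : R * H = R * H * P := by rw [mul_assoc, hcH.eq, ← mul_assoc, hRP]
    rw [hj, e2, e1]; noncomm_ring
  have hjs : star j = j := by
    rw [hj, star_mul, hPs, (cfc_predicate (g₂ δ) R : IsSelfAdjoint _).star_eq, hcg.eq]
  have hPj : P * j = j := by rw [hj, hcg.eq, ← mul_assoc, hPP]
  have hj0 : 0 ≤ j := by
    have h1 : (0 : B) ≤ star P * cfc (g₂ δ) R * P :=
      star_left_conjugate_nonneg (cfc_nonneg fun t _ => (g₂_mem δ t).1) P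
    rwa [hPs, ← hcg.eq, mul_assoc, hPP, ← hj] at h1
  set D := G + j * j with hD
  have hjj0 : 0 ≤ j * j := by have := star_mul_self_nonneg j; rwa [hjs] at this
  have hGD : G ≤ D := le_add_of_nonneg_right hjj0
  have hjD : j * j ≤ D := le_add_of_nonneg_left hG0
  set v := S₂ - S₁ * (star S₁ * (P * (H * S₂))) with hv
  have hev : e * v = v := by rw [hv, mul_sub, he₂, ← mul_assoc, he₁]
  have hPv : P * v = j * S₂ := by
    have e1 : P * (S₁ * (star S₁ * (P * (H * S₂)))) = R * H * S₂ := by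
      rw [hR, star_mul, hPs]; simp only [mul_assoc]
    rw [hv, mul_sub, e1, ← sub_mul]
    congr 1
    exact sub_eq_iff_eq_add.2 hdec
  set T1 := star v * G * v with hT1
  set T2 := star S₂ * (j * j) * S₂ with hT2
  have hvv : ρ • (star v * v) ≤ T1 + T2 := by
    have e1 : star v * (e * e) * v = star v * v := by
      rw [mul_assoc, mul_assoc e e v, hev, hev]
    have e2 : star v * (e * P * e) * v = T2 := by
      have : star v * (e * P * e) * v = star (P * v) * (P * v) := by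
        rw [star_mul, hPs]
        calc star v * (e * P * e) * v = star (e * v) * P * (e * v) := by
              rw [star_mul, he.star_eq]; simp only [mul_assoc]
          _ = _ := by rw [hev]; simp only [mul_assoc, ← mul_assoc P P, hPP]
      rw [this, hPv, hT2, star_mul, hjs]; simp only [mul_assoc]
    have h1 := conj_mono hG v
    rw [mul_sub (star v) (ρ • (e * e)) (e * P * e), sub_mul (star v * (ρ • (e * e))) (star v * (e * P * e)) v,
      e2, mul_smul_comm, smul_mul_assoc, e1] at h1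
    exact sub_le_iff_le_add.1 h1
  have hsubY : Sub (T1 + T2) D := Sub.add hS ((Sub.conj G v).trans (Sub.of_le hG0 hGD))
    ((Sub.conj (j * j) S₂).trans (Sub.of_le hjj0 hjD))
  have hvD : Sub (star v * v) D := by
    have h1 : Sub (ρ • (star v * v)) D :=
      (Sub.of_le (smul_nonneg' hρ.le (star_mul_self_nonneg v)) hvv).trans hsubY
    have h2 := (Sub.smul (inv_nonneg.2 hρ.le) (ρ • (star v * v))).trans h1
    rwa [smul_smul, inv_mul_cancel₀ hρ.ne', one_smul] at h2
  have hY0 : 0 ≤ Y := (norm_nonneg _).trans hBY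
  have nS : ∀ S : B, ‖star S * S - B₂‖ ≤ ε₀ → ‖S‖ * ‖S‖ ≤ Y + 1 := by
    intro S hS'
    rw [← CStarRing.norm_star_mul_self]
    calc ‖star S * S‖ = ‖B₂ + (star S * S - B₂)‖ := by rw [add_sub_cancel]
      _ ≤ ‖B₂‖ + ‖star S * S - B₂‖ := norm_add_le _ _
      _ ≤ Y + 1 := by linarith
  have nP : ‖P‖ ≤ 1 := hP.norm_le
  set u := star S₂ * v with hu
  set K := 1 + (Y + 1) * (4 / δ) with hK
  have nSS : ‖S₁‖ * ‖S₂‖ ≤ Y + 1 := by
    nlinarith [nS S₁ h11, nS S₂ h22, sq_nonneg (‖S₁‖ - ‖S₂‖)]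
  have nu : ‖u - B₂‖ ≤ ε₀ * K := by
    have e1 : u - B₂ = (star S₂ * S₂ - B₂) - star S₂ * S₁ * (star S₁ * (P * (H * S₂))) := by
      rw [hu, hv, mul_sub, mul_assoc]; abel
    have n2 : ‖star S₁ * (P * (H * S₂))‖ ≤ (Y + 1) * (4 / δ) :=
      calc _ ≤ ‖star S₁‖ * (‖P‖ * (‖H‖ * ‖S₂‖)) := (norm_mul_le _ _).trans
            (mul_le_mul_of_nonneg_left ((norm_mul_le _ _).trans
              (mul_le_mul_of_nonneg_left (norm_mul_le _ _) (norm_nonneg _))) (norm_nonneg _))
        _ ≤ ‖S₁‖ * (1 * ((4 / δ) * ‖S₂‖)) := by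
            rw [norm_star]; gcongr; exact cfc_hF_norm hδ R
        _ = (‖S₁‖ * ‖S₂‖) * (4 / δ) := by ring
        _ ≤ _ := by gcongr
    rw [e1]
    refine (norm_sub_le _ _).trans ?_
    have := (norm_mul_le (star S₂ * S₁) _).trans (mul_le_mul h21 n2 (norm_nonneg _) hε₀.le)
    rw [hK]; nlinarith
  have nu' : ‖star u * u - B₂ * B₂‖ ≤ (2 * Y + 2) * K ^ 2 * ε₀ := by
    have hK1 : 1 ≤ K := by rw [hK]; exact le_add_of_nonneg_right (by positivity)
    have nuu : ‖u‖ ≤ Y + K := by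
      calc ‖u‖ = ‖B₂ + (u - B₂)‖ := by rw [add_sub_cancel]
        _ ≤ ‖B₂‖ + ‖u - B₂‖ := norm_add_le _ _
        _ ≤ Y + K := by nlinarith
    have e1 : star u * u - B₂ * B₂ = star (u - B₂) * u + B₂ * (u - B₂) := by
      rw [star_sub, (IsSelfAdjoint.of_nonneg hB).star_eq]; noncomm_ring
    rw [e1]
    calc _ ≤ ‖star (u - B₂)‖ * ‖u‖ + ‖B₂‖ * ‖u - B₂‖ :=
          (norm_add_le _ _).trans (add_le_add (norm_mul_le _ _) (norm_mul_le _ _))
      _ ≤ ε₀ * K * (Y + K) + Y * (ε₀ * K) := by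
          rw [norm_star]; gcongr
      _ ≤ _ := by
          have : 0 ≤ ε₀ * K * Y * (K - 1) :=
            mul_nonneg (mul_nonneg (mul_nonneg hε₀.le (by linarith)) hY0) (by linarith)
          nlinarith [mul_nonneg hε₀.le (sq_nonneg K)]
  set c₁ := (2 * Y + 2) * K ^ 2 * ε₀ with hc₁'
  have hBB : IsSelfAdjoint (B₂ * B₂) := by
    have := IsSelfAdjoint.star_mul_self B₂
    rwa [(IsSelfAdjoint.of_nonneg hB).star_eq] at this
  have hB1 : Sub (cut c₁ (B₂ * B₂)) D := by
    have h1 : B₂ * B₂ ≤ algebraMap ℝ B c₁ + star u * u := by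
      rw [← sub_le_iff_le_add]
      exact le_of_norm_le (hBB.sub (IsSelfAdjoint.star_mul_self u))
        (by rw [norm_sub_rev]; exact nu')
    refine (Sub.cut_of_le hBB h1).trans ?_
    have h2 : star u * u ≤ (Y + 1) • (star v * v) := by
      have h3 : S₂ * star S₂ ≤ algebraMap ℝ B (Y + 1) := le_of_norm_le
        (IsSelfAdjoint.mul_star_self _) (by rw [CStarRing.norm_self_mul_star]; exact nS S₂ h22)
      have h4 := conj_mono h3 v
      rw [Algebra.algebraMap_eq_smul_one, mul_smul_comm, mul_one, smul_mul_assoc] at h4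
      rwa [hu, star_mul, star_star,
        show star v * S₂ * (star S₂ * v) = star v * (S₂ * star S₂) * v by noncomm_ring]
    exact (Sub.of_le (star_mul_self_nonneg u) h2).trans ((Sub.smul (by linarith) _).trans hvD)
  have hB2 : Sub (cut c B₂) D := by
    refine Sub.trans ?_ hB1
    have hBsa := IsSelfAdjoint.of_nonneg hB
    have e1 : cut c₁ (B₂ * B₂) = cfc (fun t => max (t * t - c₁) 0) B₂ := by
      conv_lhs => rw [← cfc_id' ℝ B₂, ← cfc_mul _ _ B₂]
      rw [cut, ← cfc_comp' (fun t => max (t - c₁) 0) (fun t : ℝ => t * t) B₂]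
    rw [e1]
    refine Sub.cfc_cfc hBsa (by fun_prop) (by fun_prop) (κ := c ^ 2 / 2) (by positivity)
      (fun t _ => le_max_right _ _) fun t _ hne => ?_
    have htc : c < t := by
      by_contra hle
      exact hne (max_eq_right (by linarith))
    exact le_trans (by nlinarith) (le_max_left _ _)
  set X := P * S₁ with hX
  set c₃ := (Y + 1) * (c + ε₀) with hc₃
  have hRR : IsSelfAdjoint (R * R) := by
    have := IsSelfAdjoint.star_mul_self R
    rwa [hRs.star_eq] at this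
  have hR2 : Sub (cut c₃ (R * R)) D := by
    have hXX : star X * X ≤ algebraMap ℝ B (c + ε₀) + cut c B₂ := by
      have h1 : star X * X ≤ star S₁ * S₁ := by
        rw [hX, star_mul, hPs, show star S₁ * P * (P * S₁) = star S₁ * (P * P) * S₁ by
          noncomm_ring, hPP]
        have := conj_mono hP.le_one S₁
        simpa using this
      have h2 : star S₁ * S₁ ≤ algebraMap ℝ B ε₀ + B₂ := by
        rw [← sub_le_iff_le_add]
        exact le_of_norm_le ((IsSelfAdjoint.star_mul_self S₁).sub (IsSelfAdjoint.of_nonneg hB)) h11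
      have h3 : B₂ ≤ algebraMap ℝ B c + cut c B₂ := by
        rw [← sub_le_iff_le_add']
        have hBsa := IsSelfAdjoint.of_nonneg hB
        have e : B₂ - algebraMap ℝ B c = cfc (fun t => t - c) B₂ := by
          rw [cfc_sub _ _ B₂, cfc_id' ℝ B₂, cfc_const c B₂]
        rw [e]
        exact cfc_mono fun t _ => le_max_left _ _
      refine h1.trans (h2.trans ?_)
      rw [map_add]
      calc algebraMap ℝ B ε₀ + B₂ ≤ algebraMap ℝ B ε₀ + (algebraMap ℝ B c + cut c B₂) :=
            add_le_add le_rfl h3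
        _ = _ := by abel
    have h4 := conj_mono hXX (star X)
    have e1 : star (star X) * (star X * X) * star X = R * R := by
      rw [star_star, hR]; noncomm_ring
    rw [e1, mul_add, add_mul, Algebra.algebraMap_eq_smul_one, mul_smul_comm, mul_one,
      smul_mul_assoc, star_star] at h4
    have h5 : (c + ε₀) • (X * star X) ≤ algebraMap ℝ B c₃ := by
      have : X * star X ≤ algebraMap ℝ B (Y + 1) := le_of_norm_le (IsSelfAdjoint.mul_star_self X)
        (by
          rw [CStarRing.norm_self_mul_star, hX]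
          calc ‖P * S₁‖ * ‖P * S₁‖ ≤ ‖S₁‖ * ‖S₁‖ := by
                have : ‖P * S₁‖ ≤ ‖S₁‖ :=
                  (norm_mul_le _ _).trans (mul_le_of_le_one_left (norm_nonneg _) nP)
                exact mul_le_mul this this (norm_nonneg _) (norm_nonneg _)
            _ ≤ _ := nS S₁ h11)
      refine (smul_mono (by linarith) this).trans (le_of_eq ?_)
      rw [hc₃, Algebra.algebraMap_eq_smul_one, Algebra.algebraMap_eq_smul_one, smul_smul,
        mul_comm]
    have h6 : R * R ≤ algebraMap ℝ B c₃ + X * cut c B₂ * star X :=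
      h4.trans (add_le_add h5 le_rfl)
    refine (Sub.cut_of_le hRR h6).trans (Sub.trans ?_ hB2)
    have := Sub.conj (cut c B₂) (star X)
    rwa [star_star] at this
  have hRH : Sub (R * H) D := by
    refine Sub.trans ?_ hR2
    have e1 : cut c₃ (R * R) = cfc (fun t => max (t * t - c₃) 0) R := by
      conv_lhs => rw [← cfc_id' ℝ R, ← cfc_mul _ _ R]
      rw [cut, ← cfc_comp' (fun t => max (t - c₃) 0) (fun t : ℝ => t * t) R]
    have e2 : R * H = cfc (fun t => t * hF δ t) R := by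
      conv_lhs => enter [1]; rw [← cfc_id' ℝ R]
      rw [hH, ← cfc_mul (fun t : ℝ => t) (hF δ) R continuousOn_id (continuous_hF hδ).continuousOn]
    rw [e1, e2]
    refine Sub.cfc_cfc hRs (continuous_id.mul (continuous_hF hδ)) (by fun_prop)
      (κ := (δ / 4) ^ 2 / 2) (by positivity) (fun t ht => ?_) fun t _ hne => ?_
    · rw [t_hF hδ]; linarith [(g₂_mem δ t).2]
    · have htd : δ / 4 < t := by
        by_contra hle
        exact hne (by rw [t_hF hδ, g₂_one hδ (not_lt.1 hle), sub_self])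
      exact le_trans (by nlinarith) (le_max_left _ _)
  rw [hdec]
  exact Sub.add hS ((Sub.self_sq hj0).trans (Sub.of_le hjj0 hjD)) hRH

end

end Vale.Agent.P133
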