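import Vale.Agent.P133.Squeeze

/-!
# P133: the strong condition for pairs with projections on one side
-/

namespace Vale.Agent.P133

open scoped CStarAlgebra

noncomputable section

universe u

section unitisation

variable {A : Type u} [NonUnitalCStarAlgebra A]

/-- The character of the unitisation. -/
def chi (A : Type u) [NonUnitalCStarAlgebra A] : Unitization ℂ A →⋆ₐ[ℂ] ℂ :=
  { Unitization.fstHom ℂ A with map_star' := fun _ => rfl }

theorem chi_apply (x : Unitization ℂ A) : chi A x = x.fst := rfl

theorem eq_inr {x : Unitization ℂ A} (h : chi A x = 0) : x = (x.snd : Unitization ℂ A) := by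
  ext
  · rw [Unitization.fst_inr]; exact h
  · rw [Unitization.snd_inr]

variable [PartialOrder A] [StarOrderedRing A]

theorem pair (hA : ∀ h : A, 0 ≤ h → ∀ ε : ℝ, 0 < ε → ∃ z₁ z₂ : A,
      ‖star z₁ * h * z₁ - h‖ < ε ∧ ‖star z₂ * h * z₂ - h‖ < ε ∧
      ‖star z₁ * h * z₂‖ < ε ∧ ‖star z₂ * h * z₁‖ < ε)
    {x y : A} (hx : 0 ≤ x) (hy : 0 ≤ y)
    (hP : ∀ ε : ℝ, 0 < ε → ∃ P a z : A, IsStarProjection P ∧ x * a = P ∧
      ‖star z * P * z - x * x‖ < ε)
    {ε : ℝ} (hε : 0 < ε) :
    ∃ s t : A, ‖star s * (x * x) * s - x * x‖ < ε ∧ ‖star t * (y * y) * t - y * y‖ < ε ∧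
      ‖star s * x * y * t‖ < ε := by
  obtain ⟨P, a, z, hPp, hxa, hz⟩ := hP (ε / 2) (by linarith)
  set ι := fun w : A => (w : Unitization ℂ A) with hι
  have hPI : ∀ h : Unitization ℂ A, 0 ≤ h → chi A h = 0 → Split h := by
    intro h h0 hc
    have e := eq_inr hc
    have h0' : 0 ≤ h.snd := by rw [e] at h0; exact Unitization.inr_nonneg_iff.1 h0
    intro η hη
    obtain ⟨z₁, z₂, h11, h22, h12, h21⟩ := hA h.snd h0' η hη
    refine ⟨(z₁ : Unitization ℂ A), (z₂ : Unitization ℂ A), ?_, ?_, ?_, ?_⟩ <;> rw [e]
    · simpa [← Unitization.inr_mul, ← Unitization.inr_star, ← Unitization.inr_sub,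
        Unitization.norm_inr] using h11
    · simpa [← Unitization.inr_mul, ← Unitization.inr_star, ← Unitization.inr_sub,
        Unitization.norm_inr] using h22
    · simpa [← Unitization.inr_mul, ← Unitization.inr_star, Unitization.norm_inr] using h12
    · simpa [← Unitization.inr_mul, ← Unitization.inr_star, Unitization.norm_inr] using h21
  set M := ‖z‖ * ‖z‖ + ‖z‖ + 1 with hM
  have hM0 : 0 < M := by positivity
  set η := min 1 (ε / (4 * M)) with hη
  have hη0 : 0 < η := lt_min one_pos (by positivity)
  have hP' : IsStarProjection (P : Unitization ℂ A) :=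
    ⟨by rw [IsIdempotentElem, ← Unitization.inr_mul, hPp.isIdempotentElem.eq],
      by rw [isSelfAdjoint_iff, ← Unitization.inr_star, hPp.isSelfAdjoint.star_eq]⟩
  obtain ⟨W, T, hW, hPT, hS, hT, hST⟩ := squeeze (chi A) hPI hP'
    (by simp [chi_apply]) (Unitization.inr_nonneg_iff.2 hy) (by simp [chi_apply]) hη0
    (min_le_left _ _)
  have hTc : chi A T = 0 := by rw [← hPT, map_mul]; simp [chi_apply]
  rw [eq_inr hW] at hS hST
  rw [eq_inr hTc] at hPT hT hST
  set w := W.snd
  set τ := T.snd
  simp only [← Unitization.inr_mul, ← Unitization.inr_star, ← Unitization.inr_sub,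
    Unitization.norm_inr] at hS hT hST
  have hPτ : P * τ = τ := Unitization.inr_injective (R := ℂ)
    (by rw [Unitization.inr_mul]; exact hPT)
  have hxs : x * (a * τ * z) = τ * z := by rw [← mul_assoc, ← mul_assoc, hxa, hPτ]
  have hxsa := IsSelfAdjoint.of_nonneg hx
  have hysa := IsSelfAdjoint.of_nonneg hy
  have hle : η ≤ ε / (4 * M) := min_le_right _ _
  rw [le_div_iff₀ (by positivity)] at hle
  refine ⟨a * τ * z, w, ?_, ?_, ?_⟩
  · have e1 : star (a * τ * z) * (x * x) * (a * τ * z) = star (τ * z) * (τ * z) :=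
      calc star (a * τ * z) * (x * x) * (a * τ * z) =
          star (x * (a * τ * z)) * (x * (a * τ * z)) := by
            rw [star_mul x, hxsa.star_eq]; simp only [mul_assoc]
        _ = _ := by rw [hxs]
    have e3 : star z * P * z = star (P * z) * (P * z) := by
      rw [star_mul, hPp.isSelfAdjoint.star_eq]
      calc star z * P * z = star z * (P * P) * z := by rw [hPp.isIdempotentElem.eq]
        _ = _ := by simp only [mul_assoc]
    have e2 : star (τ * z) * (τ * z) - x * x =
        star z * (star τ * τ - P) * z + (star z * P * z - x * x) := by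
      rw [star_mul]; noncomm_ring
    rw [e1, e2]
    refine (norm_add_le _ _).trans_lt ?_
    have : ‖star z * (star τ * τ - P) * z‖ ≤ ‖z‖ * η * ‖z‖ :=
      calc _ ≤ ‖star z‖ * ‖star τ * τ - P‖ * ‖z‖ := norm_mul₃_le
        _ ≤ _ := by rw [norm_star]; gcongr
    nlinarith [norm_nonneg z, mul_nonneg hη0.le (norm_nonneg z)]
  · have e1 : star w * (y * y) * w = star (y * w) * (y * w) := by
      rw [star_mul, hysa.star_eq]; simp only [mul_assoc]
    rw [e1]
    nlinarith [norm_nonneg z, mul_nonneg hη0.le (norm_nonneg z),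
      mul_nonneg hη0.le (mul_nonneg (norm_nonneg z) (norm_nonneg z))]
  · have e1 : star (a * τ * z) * x * y * w = star z * (star (star (y * w) * τ)) :=
      calc star (a * τ * z) * x * y * w = star (x * (a * τ * z)) * (y * w) := by
            rw [star_mul x, hxsa.star_eq]; simp only [mul_assoc]
        _ = _ := by rw [hxs, star_mul τ, star_mul (star (y * w)), star_star]; simp only [mul_assoc]
    rw [e1]
    refine (norm_mul_le _ _).trans_lt ?_
    rw [norm_star, norm_star]
    have := mul_le_mul_of_nonneg_left hST.le (norm_nonneg z)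
    nlinarith [norm_nonneg z, mul_nonneg hη0.le (mul_nonneg (norm_nonneg z) (norm_nonneg z))]

end unitisation

section unital

variable {A : Type u} [CStarAlgebra A] [PartialOrder A] [StarOrderedRing A]

theorem full_projection {x : A} (hs : Split (x * x)) (hx : 0 ≤ x) {n : ℕ} (a b : Fin n → A)
    (h : ∑ i, a i * x * b i = 1) :
    ∃ P c z : A, IsStarProjection P ∧ x * c = P ∧ star z * P * z = x * x := by
  have hxs := (IsSelfAdjoint.of_nonneg hx).star_eq
  have hadd : ∀ c d : A, Sub (star c * c) (x * x) → Sub (star d * d) (x * x) →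
      Sub (star (c + d) * (c + d)) (x * x) := by
    intro c d hc hd
    have h7 : star (c + d) * (c + d) ≤ (2 : ℝ) • (star c * c) + (2 : ℝ) • (star d * d) := by
      rw [← sub_nonneg]
      convert star_mul_self_nonneg (c - d) using 1
      rw [two_smul, two_smul, star_add, star_sub]; noncomm_ring
    exact (Sub.of_le (star_mul_self_nonneg _) h7).trans
      (Sub.add hs ((Sub.smul (by norm_num) _).trans hc) ((Sub.smul (by norm_num) _).trans hd))
  have hterm : ∀ i, Sub (star (a i * x * b i) * (a i * x * b i)) (x * x) := by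
    intro i
    have h1 := conj_mono (le_of_norm_le (IsSelfAdjoint.star_mul_self (a i))
      (le_refl ‖star (a i) * a i‖)) (x * b i)
    rw [Algebra.algebraMap_eq_smul_one, mul_smul_comm, mul_one, smul_mul_assoc] at h1
    have h2 : star (a i * x * b i) * (a i * x * b i) ≤
        ‖star (a i) * a i‖ • (star (b i) * (x * x) * b i) := by
      convert h1 using 1
      · simp only [star_mul, mul_assoc]
      · simp only [star_mul, hxs, mul_assoc]
    exact (Sub.of_le (star_mul_self_nonneg _) h2).trans
      ((Sub.smul (norm_nonneg _) _).trans (Sub.conj _ _))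
  have hsum : Sub (star (∑ i, a i * x * b i) * (∑ i, a i * x * b i)) (x * x) := by
    induction (Finset.univ : Finset (Fin n)) using Finset.cons_induction with
    | empty => exact fun ε hε => ⟨0, by simpa using hε⟩
    | cons i s _ ih => rw [Finset.sum_cons]; exact hadd _ _ (hterm i) ih
  rw [h, star_one, one_mul] at hsum
  obtain ⟨z, hz⟩ := hsum (1 / 2) (by norm_num)
  set k := star z * (x * x) * z with hk
  have hk0 : IsSelfAdjoint k := by
    rw [isSelfAdjoint_iff, hk]; simp only [star_mul, star_star, hxs, mul_assoc]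
  have hkl : algebraMap ℝ A (1 / 2) ≤ k := by
    have h1 : (1 : A) - k ≤ algebraMap ℝ A (1 / 2) :=
      le_of_norm_le ((IsSelfAdjoint.one A).sub hk0) (by rw [norm_sub_rev]; exact hz.le)
    calc algebraMap ℝ A (1 / 2) = 1 - algebraMap ℝ A (1 / 2) := by
          rw [eq_sub_iff_add_eq, ← map_add]; norm_num
      _ ≤ k := sub_le_comm.1 h1
  set f : ℝ → ℝ := fun t => (Real.sqrt (max t (1 / 2)))⁻¹ with hf
  have hfc : Continuous f := Continuous.inv₀ (by fun_prop) fun t =>
    (Real.sqrt_pos.2 (lt_of_lt_of_le (by norm_num) (le_max_right _ _))).ne'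
  have hfs : star (cfc f k) = cfc f k := (cfc_predicate f k : IsSelfAdjoint _).star_eq
  set w := z * cfc f k with hw
  have hw1 : star w * (x * x) * w = 1 := by
    have e1 : star w * (x * x) * w = cfc f k * k * cfc f k := by
      rw [hw, star_mul, hfs, hk]; simp only [mul_assoc]
    rw [e1]
    conv_lhs => enter [1, 2]; rw [← cfc_id' ℝ k]
    rw [cfc_mul3 k hfc (continuous_id' (X := ℝ)) hfc, ← cfc_const_one ℝ k]
    refine cfc_congr fun t ht => ?_
    have ht2 : 1 / 2 ≤ t := (algebraMap_le_iff_le_spectrum (a := k)).1 hkl t ht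
    simp only [hf, max_eq_left ht2]
    rw [mul_right_comm, ← mul_inv, Real.mul_self_sqrt (by linarith), inv_mul_cancel₀ (by linarith)]
  refine ⟨x * w * (star w * x), w * (star w * x), x * w * x, ⟨?_, ?_⟩, (mul_assoc _ _ _).symm, ?_⟩
  · rw [IsIdempotentElem]
    calc x * w * (star w * x) * (x * w * (star w * x)) =
        x * w * (star w * (x * x) * w) * (star w * x) := by simp only [mul_assoc]
      _ = _ := by rw [hw1, mul_one]
  · rw [isSelfAdjoint_iff]; simp only [star_mul, star_star, hxs, mul_assoc]
  · calc star (x * w * x) * (x * w * (star w * x)) * (x * w * x) =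
        x * ((star w * (x * x) * w) * (star w * (x * x) * w)) * x := by
          simp only [star_mul, hxs, mul_assoc]
      _ = x * x := by rw [hw1, mul_one, mul_one]

end unital

end

end Vale.Agent.P133
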