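import Vale.Agent.P133.Cover

/-!
# P133: squeezing an arbitrary positive element against a projection

`A` is the kernel of a character `χ` of the unital algebra `B`.
-/

namespace Vale.Agent.P133

noncomputable section

variable {B : Type*} [CStarAlgebra B] [PartialOrder B] [StarOrderedRing B]

/-- `(t - 0)₊`. -/
def pos0 (t : ℝ) : ℝ := max t 0

theorem continuous_pos0 : Continuous pos0 := by unfold pos0; fun_prop

theorem map_cfc_zero (χ : B →⋆ₐ[ℂ] ℂ) {a : B} (ha : IsSelfAdjoint a) (h : χ a = 0) {f : ℝ → ℝ}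
    (hf : Continuous f) (h0 : f 0 = 0) : χ (cfc f a) = 0 := by
  have hc : Continuous χ := map_continuous χ
  rw [StarAlgHomClass.map_cfc (χ : B →⋆ₐ[ℂ] ℂ) f a, h, cfc_apply_zero, h0, map_zero]

theorem le_cfc_pos0 {Q : B} (hQ : IsSelfAdjoint Q) : Q ≤ cfc pos0 Q := by
  conv_lhs => rw [← cfc_id' ℝ Q]
  exact cfc_mono (fun t _ => le_max_left t 0) (hg := continuous_pos0.continuousOn)

theorem cfc_pos0_nonneg (Q : B) : 0 ≤ cfc pos0 Q := cfc_nonneg fun t _ => le_max_right t 0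

theorem cut_zero (Q : B) : cut 0 Q = cfc pos0 Q := by unfold cut pos0; simp

theorem norm_sub_cut {x : B} (hx : 0 ≤ x) {c : ℝ} (hc : 0 ≤ c) : ‖cut c x - x‖ ≤ c := by
  have hxs := IsSelfAdjoint.of_nonneg hx
  conv_lhs => enter [1, 2]; rw [← cfc_id' ℝ x]
  rw [cut, ← cfc_sub _ _ x (by fun_prop) (by fun_prop)]
  refine norm_cfc_le hc fun t ht => ?_
  have t0 := spec_nonneg hx ht
  rw [Real.norm_eq_abs, abs_le]
  rcases le_total (t - c) 0 with h | h
  · rw [max_eq_right h]; constructor <;> linarith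
  · rw [max_eq_left h]; constructor <;> linarith

theorem defect_sa {e x : B} (he : IsSelfAdjoint e) (hx : IsSelfAdjoint x) (r : ℝ) :
    IsSelfAdjoint (r • (e * e) - e * x * e) := by
  simp only [isSelfAdjoint_iff, star_sub, star_smul, star_mul, he.star_eq, hx.star_eq, mul_assoc,
    star_trivial]

/-- A column in the range of `P` that covers `P` and is killed modulo the defect `G`. -/
theorem exists_column (χ : B →⋆ₐ[ℂ] ℂ) (hPI : ∀ h : B, 0 ≤ h → χ h = 0 → Split h)
    {P G j m₁ : B} {ε : ℝ} (hP : IsStarProjection P) (hPχ : χ P = 0) (hG0 : 0 ≤ G)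
    (hjs : star j = j) (hjχ : χ j = 0) (hPj : P * j = j) (hmj : m₁ * j = j)
    (hPD : Sub P (G + j * j)) (hε : 0 < ε) (hε1 : ε ≤ 1) :
    ∃ T : B, χ T = 0 ∧ P * T = T ∧ ‖star T * T - P‖ < ε ∧ ‖star T * T‖ ≤ 2 ∧
      Sub ((P - m₁) * T * star ((P - m₁) * T)) G := by
  have hPs : star P = P := hP.isSelfAdjoint.star_eq
  have hPP : P * P = P := hP.isIdempotentElem.eq
  have hjj0 : 0 ≤ j * j := by have := star_mul_self_nonneg j; rwa [hjs] at this
  set D := G + j * j with hD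
  have hD0 : 0 ≤ D := add_nonneg hG0 hjj0
  obtain ⟨z, hz⟩ := hPD (1 / 2) (by norm_num)
  set q := P * star z * G * (z * P) with hq
  set q' := P * star z * (j * j) * (z * P) with hq'
  have hq0 : 0 ≤ q := by
    have := star_left_conjugate_nonneg hG0 (z * P)
    rwa [star_mul, hPs, ← hq] at this
  have hqq : q + q' = P * (star z * D * z) * P := by rw [hq, hq', hD]; noncomm_ring
  have hPle : P ≤ (2 : ℝ) • (q + q') := by
    have h1 : P - star z * D * z ≤ algebraMap ℝ B (1 / 2) :=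
      le_of_norm_le (hP.isSelfAdjoint.sub
        (IsSelfAdjoint.of_nonneg (star_left_conjugate_nonneg hD0 z)))
        (by rw [norm_sub_rev]; exact hz.le)
    have h2 := conj_mono h1 P
    rw [hPs, mul_sub, sub_mul, hPP, hPP, ← hqq, Algebra.algebraMap_eq_smul_one, mul_smul_comm,
      mul_one, smul_mul_assoc, hPP] at h2
    have h3 : P - (1 / 2 : ℝ) • P ≤ q + q' := sub_le_comm.1 h2
    have h4 := smul_mono (r := (2 : ℝ)) (by norm_num) h3
    rw [smul_sub, smul_smul] at h4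
    norm_num at h4
    rwa [two_smul ℝ P, add_le_add_iff_right, ← smul_add] at h4
  set M := j * j + q with hM
  have hM0 : 0 ≤ M := add_nonneg hjj0 hq0
  have hPq : P * q = q := by rw [hq]; simp only [← mul_assoc, hPP]
  have hMχ : χ M = 0 := by simp [hM, hjχ, hq, hPχ]
  have hq'M : Sub q' M := by
    refine (?_ : Sub q' (j * j)).trans (Sub.of_le hjj0 (le_add_of_nonneg_right hq0))
    have := Sub.conj (j * j) (z * P)
    rwa [star_mul, hPs, ← hq'] at this
  have hqM : Sub q M := Sub.of_le hq0 (le_add_of_nonneg_left hjj0)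
  have hPM : Sub P M :=
    (Sub.of_le hP.nonneg hPle).trans ((Sub.smul (by norm_num) _).trans
      (Sub.add (hPI M hM0 hMχ) hqM hq'M))
  obtain ⟨w, hw⟩ := (hPM.trans (Sub.self_sq hM0)) (ε / 2) (by linarith)
  set T := M * w with hT
  have hMs := (IsSelfAdjoint.of_nonneg hM0).star_eq
  have hTT : star T * T = star w * (M * M) * w := by rw [hT, star_mul, hMs]; noncomm_ring
  have hPM' : P * M = M := by rw [hM, mul_add, ← mul_assoc, hPj, hPq]
  have hPT : P * T = T := by rw [hT, ← mul_assoc, hPM']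
  have hT2' : ‖star T * T - P‖ < ε := by rw [hTT]; linarith
  have hTn : ‖star T * T‖ ≤ 2 := by
    calc ‖star T * T‖ = ‖P + (star T * T - P)‖ := by rw [add_sub_cancel]
      _ ≤ ‖P‖ + ‖star T * T - P‖ := norm_add_le _ _
      _ ≤ 2 := by linarith [hP.norm_le]
  set T₂ := (P - m₁) * T with hT₂
  have hT₂e : T₂ = (P - m₁) * (q * w) := by
    have : (P - m₁) * (j * j) = 0 := by rw [← mul_assoc, sub_mul, hPj, hmj, sub_self, zero_mul]
    rw [hT₂, hT, hM, ← mul_assoc, mul_add, this, zero_add, mul_assoc]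
  have hT₂G : Sub (T₂ * star T₂) G := by
    have hqG : Sub q G := by
      have := Sub.conj G (z * P)
      rwa [star_mul, hPs, ← hq] at this
    have h1 : Sub (star (q * w) * (q * w)) (q * q) := by
      rw [star_mul, (IsSelfAdjoint.of_nonneg hq0).star_eq,
        show star w * q * (q * w) = star w * (q * q) * w by noncomm_ring]
      exact Sub.conj _ _
    have h2 : Sub (q * w * star (q * w)) G :=
      (Sub.swap _).trans (h1.trans ((Sub.sq_self hq0).trans hqG))
    have h3 := Sub.conj (q * w * star (q * w)) (star (P - m₁))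
    rw [star_star] at h3
    rw [hT₂e, star_mul,
      show (P - m₁) * (q * w) * (star (q * w) * star (P - m₁)) =
        (P - m₁) * (q * w * star (q * w)) * star (P - m₁) by noncomm_ring]
    exact h3.trans h2
  exact ⟨T, by rw [hT, map_mul, hMχ, zero_mul], hPT, hT2', hTn, hT₂G⟩

/-- The defect against `P` is below the defect against a column in the range of `P`. -/
theorem defect_mono {P e T : B} {ρ : ℝ} (hP : IsStarProjection P) (he : IsSelfAdjoint e)
    (hPT : P * T = T) (hTn : ‖star T * T‖ ≤ 2) :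
    Sub (cfc pos0 ((ρ / 2) • (e * e) - e * P * e))
      (cfc pos0 (ρ • (e * e) - e * (T * star T) * e)) := by
  have hes := he
  have hPs : star P = P := hP.isSelfAdjoint.star_eq
  have hPP : P * P = P := hP.isIdempotentElem.eq
  set Qg := (ρ / 2) • (e * e) - e * P * e with hQg
  set QN := ρ • (e * e) - e * (T * star T) * e with hQN
  set G := cfc pos0 Qg with hGdef
  set N := cfc pos0 QN with hN
  have hQgs : IsSelfAdjoint Qg := defect_sa he hP.isSelfAdjoint _
  have hQNs : IsSelfAdjoint QN := defect_sa he (IsSelfAdjoint.mul_star_self T) _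
  have h1 : T * star T ≤ (2 : ℝ) • P := by
    have h2 : T * star T ≤ algebraMap ℝ B 2 := le_of_norm_le (IsSelfAdjoint.mul_star_self T)
      (by rw [CStarRing.norm_self_mul_star, ← CStarRing.norm_star_mul_self]; exact hTn)
    have h3 := conj_mono h2 P
    have e1 : star P * (T * star T) * P = T * star T := by
      rw [hPs, ← mul_assoc, hPT, mul_assoc]
      congr 1
      rw [← hPs, ← star_mul, hPT]
    rwa [e1, Algebra.algebraMap_eq_smul_one, mul_smul_comm, mul_one, smul_mul_assoc, hPs,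
      hPP] at h3
  have h4 : (2 : ℝ) • Qg ≤ QN := by
    have h5 := conj_mono h1 e
    rw [hes.star_eq, mul_smul_comm, smul_mul_assoc] at h5
    rw [hQg, hQN, smul_sub, smul_smul, mul_div_cancel₀ _ (two_ne_zero' ℝ)]
    exact sub_le_sub_left h5 _
  have h6 : Qg ≤ algebraMap ℝ B 0 + (1 / 2 : ℝ) • N := by
    have := smul_mono (r := (1 / 2 : ℝ)) (by norm_num) (h4.trans (le_cfc_pos0 hQNs))
    rw [smul_smul] at this
    norm_num at this ⊢
    exact this
  rw [hGdef, ← cut_zero]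
  exact (Sub.cut_of_le hQgs h6).trans (Sub.smul (by norm_num) _)

/-- The target is below the defect of a column whose kill part is small on `S₁`. -/
theorem target_le_defect {P e B₂ S₁ T m₁ : B} {ρ δ ε₀ : ℝ} (hρ : 0 < ρ) (hδ : 0 ≤ δ)
    (hε₀ : 0 ≤ ε₀) (hes : IsSelfAdjoint e) (hB : 0 ≤ B₂) (he₁ : e * S₁ = S₁)
    (h11 : ‖star S₁ * S₁ - B₂‖ ≤ ε₀) (hPT : P * T = T) (hTn : ‖star T * T‖ ≤ 2)
    (hm₁s : star m₁ = m₁) (nm : ‖m₁ * S₁‖ ^ 2 ≤ δ)
    (hT₂N : Sub ((P - m₁) * T * star ((P - m₁) * T))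
      (cfc pos0 (ρ • (e * e) - e * (T * star T) * e)))
    (hsN : Split (cfc pos0 (ρ • (e * e) - e * (T * star T) * e))) :
    Sub (cut (ε₀ + 4 * δ / ρ) B₂) (cfc pos0 (ρ • (e * e) - e * (T * star T) * e)) := by
  set QN := ρ • (e * e) - e * (T * star T) * e with hQN
  set N := cfc pos0 QN with hN
  set c' := ε₀ + 4 * δ / ρ with hc'
  set T₂ := (P - m₁) * T with hT₂
  have hQNs : IsSelfAdjoint QN := defect_sa hes (IsSelfAdjoint.mul_star_self T) _
  set T₁ := m₁ * T with hT₁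
  have hTsum : T = T₁ + T₂ := by rw [hT₁, hT₂, sub_mul, hPT, add_sub_cancel]
  set a := star T₁ * S₁ with ha
  set b := star T₂ * S₁ with hb
  have hab : star T * S₁ = a + b := by rw [hTsum, star_add, add_mul]
  have na : ‖star a * a‖ ≤ 2 * δ := by
    rw [CStarRing.norm_star_mul_self, ha, hT₁, star_mul, hm₁s, mul_assoc]
    have hT' : ‖T‖ * ‖T‖ ≤ 2 := by rw [← CStarRing.norm_star_mul_self]; exact hTn
    have := norm_mul_le (star T) (m₁ * S₁)
    rw [norm_star] at this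
    calc _ ≤ (‖T‖ * ‖m₁ * S₁‖) * (‖T‖ * ‖m₁ * S₁‖) :=
          mul_le_mul this this (norm_nonneg _) (by positivity)
      _ = (‖T‖ * ‖T‖) * ‖m₁ * S₁‖ ^ 2 := by ring
      _ ≤ 2 * δ := by gcongr
  have e2 : ρ • (star S₁ * S₁) = star S₁ * QN * S₁ + star (a + b) * (a + b) := by
    have e3 : star (e * S₁) * (e * S₁) = star S₁ * (e * e) * S₁ := by
      rw [star_mul, hes.star_eq]; noncomm_ring
    have e4 : star (a + b) * (a + b) = star S₁ * (e * (T * star T) * e) * S₁ := by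
      rw [← hab]
      calc star (star T * S₁) * (star T * S₁) = star (e * S₁) * (T * star T) * (e * S₁) := by
            rw [he₁, star_mul, star_star]; noncomm_ring
        _ = _ := by rw [star_mul, hes.star_eq]; noncomm_ring
    rw [hQN, mul_sub, sub_mul, mul_smul_comm, smul_mul_assoc, ← e3, he₁, ← e4, sub_add_cancel]
  have h7 : star (a + b) * (a + b) ≤ (2 : ℝ) • (star a * a) + (2 : ℝ) • (star b * b) := by
    rw [← sub_nonneg]
    convert star_mul_self_nonneg (a - b) using 1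
    rw [two_smul, two_smul, star_add, star_sub]; noncomm_ring
  set Y' := star S₁ * N * S₁ + (2 : ℝ) • (star b * b) with hY'
  have h8 : ρ • B₂ ≤ algebraMap ℝ B (ρ * ε₀ + 4 * δ) + Y' := by
    have h9 : B₂ ≤ star S₁ * S₁ + algebraMap ℝ B ε₀ := by
      rw [← sub_le_iff_le_add']
      exact le_of_norm_le ((IsSelfAdjoint.of_nonneg hB).sub (IsSelfAdjoint.star_mul_self S₁))
        (by rw [norm_sub_rev]; exact h11)
    have h10 : (2 : ℝ) • (star a * a) ≤ algebraMap ℝ B (4 * δ) := by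
      refine (smul_mono (by norm_num)
        (le_of_norm_le (IsSelfAdjoint.star_mul_self a) na)).trans (le_of_eq ?_)
      rw [Algebra.algebraMap_eq_smul_one, Algebra.algebraMap_eq_smul_one, smul_smul]
      norm_num
      ring_nf
    calc ρ • B₂ ≤ ρ • (star S₁ * S₁ + algebraMap ℝ B ε₀) := smul_mono hρ.le h9
      _ = star S₁ * QN * S₁ + star (a + b) * (a + b) + algebraMap ℝ B (ρ * ε₀) := by
          rw [smul_add, e2, Algebra.algebraMap_eq_smul_one, Algebra.algebraMap_eq_smul_one,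
            smul_smul]
      _ ≤ star S₁ * N * S₁ + ((algebraMap ℝ B (4 * δ)) + (2 : ℝ) • (star b * b)) +
            algebraMap ℝ B (ρ * ε₀) :=
          add_le_add (add_le_add (conj_mono (le_cfc_pos0 hQNs) S₁)
            (h7.trans (add_le_add h10 le_rfl))) le_rfl
      _ = _ := by rw [hY', map_add]; abel
  have h11' : B₂ ≤ algebraMap ℝ B c' + ρ⁻¹ • Y' := by
    have := smul_mono (r := ρ⁻¹) (inv_nonneg.2 hρ.le) h8
    rw [smul_smul, inv_mul_cancel₀ hρ.ne', one_smul, smul_add, Algebra.algebraMap_eq_smul_one,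
      smul_smul] at this
    refine this.trans (le_of_eq ?_)
    rw [Algebra.algebraMap_eq_smul_one, hc']
    congr 2
    field_simp
  refine (Sub.cut_of_le (IsSelfAdjoint.of_nonneg hB) h11').trans
    ((Sub.smul (inv_nonneg.2 hρ.le) _).trans ?_)
  refine Sub.add hsN (Sub.conj N S₁) ((Sub.smul (by norm_num) _).trans ?_)
  refine Sub.trans ?_ hT₂N
  rw [hb, star_mul, star_star,
    show star S₁ * T₂ * (star T₂ * S₁) = star S₁ * (T₂ * star T₂) * S₁ by noncomm_ring]
  exact Sub.conj _ _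

/-- The defect is below its compression of `e²`. -/
theorem defect_gen {e T : B} {ρ : ℝ} (hρ : 0 ≤ ρ) (hes : IsSelfAdjoint e) :
    (cfc pos0 (ρ • (e * e) - e * (T * star T) * e)) *
        (e * (T * star T) * e) * (cfc pos0 (ρ • (e * e) - e * (T * star T) * e)) ≤
      ρ • ((cfc pos0 (ρ • (e * e) - e * (T * star T) * e)) * (e * e) *
        (cfc pos0 (ρ • (e * e) - e * (T * star T) * e))) ∧
    Sub (cfc pos0 (ρ • (e * e) - e * (T * star T) * e))
      ((cfc pos0 (ρ • (e * e) - e * (T * star T) * e)) * (e * e) *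
        (cfc pos0 (ρ • (e * e) - e * (T * star T) * e))) := by
  set QN := ρ • (e * e) - e * (T * star T) * e with hQN
  set N := cfc pos0 QN with hN
  have hN0 : 0 ≤ N := cfc_pos0_nonneg _
  have hNs : star N = N := (IsSelfAdjoint.of_nonneg hN0).star_eq
  have hQNs : IsSelfAdjoint QN := defect_sa hes (IsSelfAdjoint.mul_star_self T) _
  have hNQN : N * QN * N = N * N * N := by
    conv_lhs => rw [hN]; enter [1, 2]; rw [← cfc_id' ℝ QN]
    rw [cfc_mul3 QN continuous_pos0 (continuous_id' (X := ℝ)) continuous_pos0, hN,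
      cfc_mul3 QN continuous_pos0 continuous_pos0 continuous_pos0]
    refine cfc_congr fun t _ => ?_
    rcases le_total t 0 with h | h <;> simp [pos0, h]
  have hbase : N * QN * N = ρ • (N * (e * e) * N) - N * (e * (T * star T) * e) * N := by
    rw [hQN, mul_sub, sub_mul, mul_smul_comm, smul_mul_assoc]
  have hNeN : Sub N (N * (e * e) * N) := by
    have h1 : N * N * N ≤ ρ • (N * (e * e) * N) := by
      rw [← hNQN, hbase, sub_le_self_iff]
      have h2 := star_mul_self_nonneg (star T * e * N)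
      rw [star_mul, star_mul, star_star, hes.star_eq, hNs] at h2
      convert h2 using 1
      noncomm_ring
    have h3 : 0 ≤ N * N * N := by
      simpa [hNs] using star_left_conjugate_nonneg hN0 N
    have hNN0 : 0 ≤ N * N := by have := star_mul_self_nonneg N; rwa [hNs] at this
    set s := cfc Real.sqrt N with hs
    have hss : star s = s := (cfc_predicate _ N : IsSelfAdjoint s).star_eq
    have hsc : Commute N s := ((Commute.refl N).cfc_real Real.sqrt).symm
    have h4 : N * N * (N * N) = s * (N * N * N) * s := by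
      rw [mul_assoc s, (hsc.mul_left hsc |>.mul_left hsc).eq, ← mul_assoc s s, sqrt_mul hN0]
      noncomm_ring
    have h5 : Sub (N * N * (N * N)) (N * N * N) := by
      rw [h4]; simpa [hss] using Sub.conj (N * N * N) s
    exact (Sub.self_sq hN0).trans ((Sub.self_sq hNN0).trans (h5.trans
      ((Sub.of_le h3 h1).trans (Sub.smul hρ _))))
  refine ⟨?_, hNeN⟩
  rw [← sub_nonneg, ← hbase, hNQN]
  simpa [hNs] using star_left_conjugate_nonneg hN0 N

/-- The kill range is small on `S₁`. -/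
theorem kill_small {P S₁ : B} {δ : ℝ} (hδ : 0 < δ) (hP : IsStarProjection P) :
    let R := P * S₁ * star (P * S₁)
    let m₁ := cfc (g₁ δ) R * P
    let j := cfc (g₂ δ) R * P
    star m₁ = m₁ ∧ star j = j ∧ P * j = j ∧ m₁ * j = j ∧ ‖m₁ * S₁‖ ^ 2 ≤ δ := by
  intro R m₁ j
  have hPs : star P = P := hP.isSelfAdjoint.star_eq
  have hPP : P * P = P := hP.isIdempotentElem.eq
  have hR : R = P * S₁ * star (P * S₁) := rfl
  have hm₁ : m₁ = cfc (g₁ δ) R * P := rfl
  have hj : j = cfc (g₂ δ) R * P := rfl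
  have hRs : IsSelfAdjoint R := IsSelfAdjoint.mul_star_self _
  have hR0 : 0 ≤ R := mul_star_self_nonneg _
  have hRP : R * P = R := by rw [hR, star_mul, hPs]; simp only [mul_assoc, hPP]
  have hPR : P * R = R := by rw [hR]; simp only [← mul_assoc, hPP]
  have hcomm : Commute R P := by rw [Commute, SemiconjBy, hRP, hPR]
  have hc1 : Commute (cfc (g₁ δ) R) P := hcomm.cfc_real (g₁ δ)
  have hc2 : Commute (cfc (g₂ δ) R) P := hcomm.cfc_real (g₂ δ)
  have hjs : star j = j := by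
    rw [hj, star_mul, hPs, (cfc_predicate (g₂ δ) R : IsSelfAdjoint _).star_eq, hc2.eq]
  have hm₁s : star m₁ = m₁ := by
    rw [hm₁, star_mul, hPs, (cfc_predicate (g₁ δ) R : IsSelfAdjoint _).star_eq, hc1.eq]
  have hPj : P * j = j := by rw [hj, hc2.eq, ← mul_assoc, hPP]
  have hPm : P * m₁ = m₁ := by rw [hm₁, hc1.eq, ← mul_assoc, hPP]
  have hmP : m₁ * P = m₁ := by rw [hm₁, mul_assoc, hPP]
  have hmj : m₁ * j = j := by
    rw [hm₁, mul_assoc, hPj, hj, ← mul_assoc,
      ← cfc_mul _ _ R (continuous_g₁ δ).continuousOn (continuous_g₂ δ).continuousOn]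
    congr 1
    exact cfc_congr fun t _ => g₁_g₂ hδ t
  have nm : ‖m₁ * S₁‖ ^ 2 ≤ δ := by
    rw [pow_two, ← CStarRing.norm_self_mul_star, star_mul, hm₁s]
    have e1 : m₁ * S₁ * (star S₁ * m₁) = cfc (fun t => g₁ δ t * t * g₁ δ t) R * P := by
      calc m₁ * S₁ * (star S₁ * m₁) = m₁ * P * S₁ * (star S₁ * (P * m₁)) := by rw [hmP, hPm]
        _ = m₁ * R * m₁ := by rw [hR, star_mul, hPs]; noncomm_ring
        _ = cfc (g₁ δ) R * R * (cfc (g₁ δ) R * P) := by
            rw [hm₁, mul_assoc (cfc (g₁ δ) R) P R, hPR]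
        _ = _ := by
            rw [← mul_assoc]
            congr 1
            conv_lhs => enter [1, 2]; rw [← cfc_id' ℝ R]
            exact cfc_mul3 R (continuous_g₁ δ) continuous_id (continuous_g₁ δ)
    rw [e1]
    refine (norm_mul_le _ _).trans ?_
    refine (mul_le_of_le_one_right (norm_nonneg _) hP.norm_le).trans ?_
    exact norm_cfc_le hδ.le fun t ht => by
      rw [Real.norm_eq_abs]; exact g₁_bound hδ (spec_nonneg hR0 ht)
  exact ⟨hm₁s, hjs, hPj, hmj, nm⟩

/-- The core of the squeeze, for given plateau, copies and constants. -/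
theorem squeeze_aux (χ : B →⋆ₐ[ℂ] ℂ) (hPI : ∀ h : B, 0 ≤ h → χ h = 0 → Split h)
    {P e B₂ S₁ S₂ : B} {ε ρ δ c ε₀ YB : ℝ} (hP : IsStarProjection P) (hPχ : χ P = 0)
    (hes : IsSelfAdjoint e) (heχ : χ e = 0) (hB : 0 ≤ B₂) (he₁ : e * S₁ = S₁) (he₂ : e * S₂ = S₂)
    (hε : 0 < ε) (hε1 : ε ≤ 1) (hρ : 0 < ρ) (hδ : 0 < δ) (hc : 0 < c) (hε₀ : 0 < ε₀)
    (hε₀1 : ε₀ ≤ 1) (hBY : ‖B₂‖ ≤ YB) (h11 : ‖star S₁ * S₁ - B₂‖ ≤ ε₀)
    (h22 : ‖star S₂ * S₂ - B₂‖ ≤ ε₀) (h21 : ‖star S₂ * S₁‖ ≤ ε₀)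
    (hc₁ : 2 * ((2 * YB + 2) * (1 + (YB + 1) * (4 / δ)) ^ 2) * ε₀ ≤ c ^ 2 / 2)
    (hc₂ : 2 * ((YB + 1) * (c + ε₀)) ≤ (δ / 4) ^ 2) :
    ∃ N x T : B, χ N = 0 ∧ P * T = T ∧ ‖star T * T - P‖ < ε ∧
      ‖star (e * N * x) * (e * N * x) - cut (ε₀ + 4 * δ / ρ) B₂‖ < ε / 8 ∧
      star (star T * (e * N * x)) * (star T * (e * N * x)) ≤
        ρ • (star (e * N * x) * (e * N * x)) := by
  have hPs : star P = P := hP.isSelfAdjoint.star_eq
  obtain ⟨hm₁s, hjs, hPj, hmj, nm⟩ := kill_small (S₁ := S₁) hδ hP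
  set R := P * S₁ * star (P * S₁) with hR
  set j := cfc (g₂ δ) R * P with hj
  set m₁ := cfc (g₁ δ) R * P with hm₁
  set Qg := (ρ / 2) • (e * e) - e * P * e with hQg
  have hQgs : IsSelfAdjoint Qg := defect_sa hes hP.isSelfAdjoint _
  have hQgχ : χ Qg = 0 := by simp [hQg, ← Complex.coe_smul, heχ]
  set G := cfc pos0 Qg with hG
  have hG0 : 0 ≤ G := cfc_pos0_nonneg _
  have hGχ : χ G = 0 := map_cfc_zero χ hQgs hQgχ continuous_pos0 (by simp [pos0])
  have hjχ : χ j = 0 := by rw [hj, map_mul, hPχ, mul_zero]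
  have hjj0 : 0 ≤ j * j := by have := star_mul_self_nonneg j; rwa [hjs] at this
  have hPD : Sub P (G + j * j) :=
    cover hP hes hB he₁ he₂ hδ (by positivity) hε₀ hε₀1 hBY h11 h22 h21 hc hc₁ hc₂
      R G j rfl hG0 (le_cfc_pos0 hQgs) rfl (hPI _ (add_nonneg hG0 hjj0) (by simp [hGχ, hjχ]))
  obtain ⟨T, hTχ, hPT, hT2', hTn, hT₂G⟩ :=
    exists_column χ hPI hP hPχ hG0 hjs hjχ hPj hmj hPD hε hε1
  set QN := ρ • (e * e) - e * (T * star T) * e with hQN
  have hQNs : IsSelfAdjoint QN := defect_sa hes (IsSelfAdjoint.mul_star_self T) _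
  have hQNχ : χ QN = 0 := by simp [hQN, ← Complex.coe_smul, heχ]
  set N := cfc pos0 QN with hN
  have hN0 : 0 ≤ N := cfc_pos0_nonneg _
  have hNs : star N = N := (IsSelfAdjoint.of_nonneg hN0).star_eq
  have hNχ : χ N = 0 := map_cfc_zero χ hQNs hQNχ continuous_pos0 (by simp [pos0])
  have hBN : Sub (cut (ε₀ + 4 * δ / ρ) B₂) N :=
    target_le_defect hρ hδ.le hε₀.le hes hB he₁ h11 hPT hTn hm₁s nm
      (hT₂G.trans (defect_mono hP hes hPT hTn)) (hPI N hN0 hNχ)
  obtain ⟨hgen, hNeN⟩ := defect_gen (T := T) hρ.le hes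
  obtain ⟨x, hx⟩ := (hBN.trans hNeN) (ε / 8) (by linarith)
  refine ⟨N, x, T, hNχ, hPT, hT2', ?_, ?_⟩
  · have hx' : ‖star x * (N * (e * e) * N) * x - cut (ε₀ + 4 * δ / ρ) B₂‖ < ε / 8 := hx
    rw [star_mul, star_mul, hes.star_eq, hNs]
    convert hx' using 2
    noncomm_ring
  · have hgen' : N * (e * (T * star T) * e) * N ≤ ρ • (N * (e * e) * N) := hgen
    have h1 := conj_mono hgen' x
    rw [mul_smul_comm, smul_mul_assoc] at h1
    convert h1 using 1
    · simp only [star_mul, star_star, hes.star_eq, hNs, mul_assoc]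
    · simp only [star_mul, hes.star_eq, hNs, mul_assoc]

/-- A plateau of `y` and a cut fixed by it. -/
theorem plateau (χ : B →⋆ₐ[ℂ] ℂ) {y : B} (hy : 0 ≤ y) (hyχ : χ y = 0) {ε Y : ℝ} (hε : 0 < ε)
    (hε1 : ε ≤ 1) (hY : Y = ‖y‖ + 1) :
    ∃ g e y₂ : B, e = y * g ∧ IsSelfAdjoint e ∧ e * y₂ = y₂ ∧ star y₂ = y₂ ∧
      χ y₂ = 0 ∧ χ e = 0 ∧ 0 ≤ y₂ * y₂ ∧ ‖y₂ * y₂‖ ≤ Y * Y ∧
      ‖y₂ * y₂ - y * y‖ ≤ ε / 8 := by
  have hys := IsSelfAdjoint.of_nonneg hy
  have hY1 : 1 ≤ Y := by rw [hY]; linarith [norm_nonneg y]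
  set τ := ε / (16 * Y) with hτdef
  have hτ : 0 < τ := by positivity
  set y₂ := cut τ y with hy₂
  set g : ℝ → ℝ := fun t => (max t τ)⁻¹ with hg
  have hgc : Continuous g :=
    Continuous.inv₀ (by fun_prop) fun t => (hτ.trans_le (le_max_right _ _)).ne'
  set e := y * cfc g y with he
  have hee : e = cfc (fun t => t * g t) y := by
    rw [he]
    conv_lhs => enter [1]; rw [← cfc_id' ℝ y]
    rw [← cfc_mul (fun t : ℝ => t) g y continuousOn_id hgc.continuousOn]
  have hes : IsSelfAdjoint e := by rw [hee]; exact cfc_predicate _ y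
  have hey₂ : e * y₂ = y₂ := by
    rw [hee, hy₂, cut, ← cfc_mul (fun t => t * g t) (fun t => max (t - τ) 0) y
      (continuous_id.mul hgc).continuousOn (by fun_prop)]
    refine cfc_congr fun t _ => ?_
    rcases le_total (t - τ) 0 with h | h
    · simp [max_eq_right h]
    · simp only [hg]
      rw [max_eq_left (by linarith : τ ≤ t), max_eq_left h, mul_inv_cancel₀ (by linarith), one_mul]
  have hy₂s : star y₂ = y₂ := (IsSelfAdjoint.of_nonneg (cut_nonneg τ y)).star_eq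
  have hy₂n : ‖y₂ - y‖ ≤ τ := norm_sub_cut hy hτ.le
  have hy₂Y : ‖y₂‖ ≤ Y := by
    calc ‖y₂‖ = ‖y + (y₂ - y)‖ := by rw [add_sub_cancel]
      _ ≤ ‖y‖ + ‖y₂ - y‖ := norm_add_le _ _
      _ ≤ Y := by
          have : τ ≤ 1 := by rw [hτdef, div_le_one (by positivity)]; linarith
          rw [hY]; linarith
  set B₂ := y₂ * y₂ with hB₂
  have hB : 0 ≤ B₂ := by have := star_mul_self_nonneg y₂; rwa [hy₂s] at this
  set YB := Y * Y with hYB
  have hYB1 : 1 ≤ YB := by rw [hYB]; nlinarith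
  have hBY : ‖B₂‖ ≤ YB :=
    (norm_mul_le _ _).trans (mul_le_mul hy₂Y hy₂Y (norm_nonneg _) (by linarith))
  have hBd : ‖B₂ - y * y‖ ≤ ε / 8 := by
    have e1 : B₂ - y * y = (y₂ - y) * y₂ + y * (y₂ - y) := by rw [hB₂]; noncomm_ring
    rw [e1]
    calc _ ≤ ‖y₂ - y‖ * ‖y₂‖ + ‖y‖ * ‖y₂ - y‖ :=
          (norm_add_le _ _).trans (add_le_add (norm_mul_le _ _) (norm_mul_le _ _))
      _ ≤ τ * Y + Y * τ := by gcongr; rw [hY]; linarith
      _ = ε / 8 := by rw [hτdef]; field_simp; ring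
  refine ⟨cfc g y, e, y₂, rfl, hes, hey₂, hy₂s,
    map_cfc_zero χ hys hyχ (by fun_prop) (by simp [hτ.le]),
    by rw [he, map_mul, hyχ, zero_mul], hB, hBY, hBd⟩

/-- Against a projection every positive element can be squeezed. -/
theorem squeeze (χ : B →⋆ₐ[ℂ] ℂ) (hPI : ∀ h : B, 0 ≤ h → χ h = 0 → Split h) {P y : B}
    (hP : IsStarProjection P) (hPχ : χ P = 0) (hy : 0 ≤ y) (hyχ : χ y = 0) {ε : ℝ} (hε : 0 < ε)
    (hε1 : ε ≤ 1) :
    ∃ W T : B, χ W = 0 ∧ P * T = T ∧ ‖star (y * W) * (y * W) - y * y‖ < ε ∧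
      ‖star T * T - P‖ < ε ∧ ‖star (y * W) * T‖ < ε := by
  have hPs : star P = P := hP.isSelfAdjoint.star_eq
  have hPP : P * P = P := hP.isIdempotentElem.eq
  have hys := IsSelfAdjoint.of_nonneg hy
  set Y := ‖y‖ + 1 with hY
  have hY1 : 1 ≤ Y := by rw [hY]; linarith [norm_nonneg y]
  obtain ⟨g, e, y₂, he, hes, hey₂, hy₂s, hy₂χ, heχ, hB, hBY, hBd⟩ :=
    plateau χ hy hyχ hε hε1 hY
  set B₂ := y₂ * y₂ with hB₂
  set YB := Y * Y with hYB
  have hYB1 : 1 ≤ YB := by rw [hYB]; nlinarith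
  set ρ := ε ^ 2 / (4 * (YB + 1)) with hρdef
  have hρ : 0 < ρ := by positivity
  set δ := ρ * ε / 32 with hδdef
  have hδ : 0 < δ := by positivity
  set c := (δ / 4) ^ 2 / (4 * (YB + 1)) with hcdef
  have hc : 0 < c := by positivity
  set K := (2 * YB + 2) * (1 + (YB + 1) * (4 / δ)) ^ 2 with hK
  have hK0 : 0 < K := by positivity
  set ε₀ := min (min (ε / 8) c) (c ^ 2 / (4 * K)) with hε₀def
  have hε₀ : 0 < ε₀ := lt_min (lt_min (by linarith) hc) (by positivity)
  have hε₀a : ε₀ ≤ ε / 8 := (min_le_left _ _).trans (min_le_left _ _)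
  have hε₀b : ε₀ ≤ c := (min_le_left _ _).trans (min_le_right _ _)
  have hε₀c : 4 * K * ε₀ ≤ c ^ 2 := by
    have := min_le_right (min (ε / 8) c) (c ^ 2 / (4 * K))
    rw [← hε₀def, le_div_iff₀ (by positivity)] at this
    linarith
  have hB₂χ : χ B₂ = 0 := by rw [hB₂, map_mul, hy₂χ, zero_mul]
  obtain ⟨z₁, z₂, h11, h22, _, h21⟩ := hPI B₂ hB hB₂χ ε₀ hε₀
  set S₁ := y₂ * z₁ with hS₁
  set S₂ := y₂ * z₂ with hS₂
  have gram : ∀ a b : B, star (y₂ * a) * (y₂ * b) = star a * B₂ * b := fun a b => by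
    rw [star_mul, hy₂s, hB₂]; noncomm_ring
  have he₁ : e * S₁ = S₁ := by rw [hS₁, ← mul_assoc, hey₂]
  have he₂ : e * S₂ = S₂ := by rw [hS₂, ← mul_assoc, hey₂]
  set c' := ε₀ + 4 * δ / ρ with hc'
  have hc'ε : c' ≤ ε / 4 := by
    rw [hc', hδdef]
    have : 4 * (ρ * ε / 32) / ρ = ε / 8 := by field_simp; ring
    linarith
  obtain ⟨N, x, T, hNχ, hPT, hT2', hx, hST⟩ :=
    squeeze_aux χ hPI hP hPχ hes heχ hB he₁ he₂ hε hε1 hρ hδ hc hε₀ (by linarith) hBY
      (by rw [hS₁, gram]; exact h11.le) (by rw [hS₂, gram]; exact h22.le)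
      (by rw [hS₁, hS₂, gram]; exact h21.le) (by linarith)
      (le_trans (mul_le_mul_of_nonneg_left (mul_le_mul_of_nonneg_left
          (add_le_add le_rfl hε₀b) (by linarith)) (by norm_num))
        (le_of_eq (by rw [hcdef]; field_simp; ring)))
  set S := e * N * x with hS
  have hWS : y * (g * (N * x)) = S := by rw [hS, he]; noncomm_ring
  have hSd : ‖star S * S - y * y‖ < ε := by
    have hc'0 : 0 ≤ c' := by positivity
    calc _ = ‖(star S * S - cut c' B₂) + (cut c' B₂ - B₂) +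
          (B₂ - y * y)‖ := by congr 1; abel
      _ ≤ _ := norm_add₃_le
      _ < ε := by linarith [norm_sub_cut hB hc'0]
  refine ⟨g * (N * x), T, by simp [hNχ], hPT, by rw [hWS]; exact hSd, hT2', ?_⟩
  rw [hWS]
  have hSn : ‖star S * S‖ ≤ YB + 1 := by
    calc ‖star S * S‖ = ‖y * y + (star S * S - y * y)‖ := by rw [add_sub_cancel]
      _ ≤ ‖y * y‖ + ‖star S * S - y * y‖ := norm_add_le _ _
      _ ≤ YB + 1 := by
          have : ‖y * y‖ ≤ YB := (norm_mul_le _ _).trans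
            (mul_le_mul (by rw [hY]; linarith) (by rw [hY]; linarith) (norm_nonneg _) (by linarith))
          linarith
  have key : ‖star S * T‖ * ‖star S * T‖ ≤ ρ * (YB + 1) := by
    rw [← norm_star (star S * T), star_mul, star_star, ← CStarRing.norm_star_mul_self]
    refine (CStarAlgebra.norm_le_norm_of_nonneg_of_le (star_mul_self_nonneg _) hST).trans ?_
    rw [norm_smul, Real.norm_of_nonneg hρ.le]
    exact mul_le_mul_of_nonneg_left hSn hρ.le
  have h2 : ρ * (YB + 1) = ε ^ 2 / 4 := by rw [hρdef]; field_simp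
  by_contra hle
  nlinarith [not_lt.1 hle]

end

end Vale.Agent.P133
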