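import Mathlib

/-!
# P133: Cuntz comparison inside a C*-algebra

`Sub b a` says that `b` is a norm limit of elements `z* a z`.
-/

namespace Vale.Agent.P133

noncomputable section

variable {B : Type*} [CStarAlgebra B] [PartialOrder B] [StarOrderedRing B]

/-- `b` is below `a`: `b` is a limit of `z* a z`. -/
def Sub (b a : B) : Prop := ∀ ε : ℝ, 0 < ε → ∃ z : B, ‖star z * a * z - b‖ < ε

/-- The cut `(x - c)₊`. -/
def cut (c : ℝ) (x : B) : B := cfc (fun t => max (t - c) 0) x

/-- Two orthogonal copies of `h` below `h`, up to `ε`. -/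
def Split (h : B) : Prop :=
  ∀ ε : ℝ, 0 < ε → ∃ z₁ z₂ : B, ‖star z₁ * h * z₁ - h‖ < ε ∧ ‖star z₂ * h * z₂ - h‖ < ε ∧
    ‖star z₁ * h * z₂‖ < ε ∧ ‖star z₂ * h * z₁‖ < ε

theorem cut_nonneg (c : ℝ) (x : B) : 0 ≤ cut c x :=
  cfc_nonneg fun _ _ => le_max_right _ _

theorem spec_nonneg {a : B} (ha : 0 ≤ a) {t : ℝ} (ht : t ∈ spectrum ℝ a) : 0 ≤ t :=
  spectrum_nonneg_of_nonneg ha ht

theorem sqrt_mul {x : B} (hx : 0 ≤ x) : cfc Real.sqrt x * cfc Real.sqrt x = x := by
  rw [← cfc_mul Real.sqrt Real.sqrt x Real.continuous_sqrt.continuousOn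
    Real.continuous_sqrt.continuousOn]
  conv_rhs => rw [← cfc_id' ℝ x]
  exact cfc_congr fun t ht => Real.mul_self_sqrt (spec_nonneg hx ht)

theorem conj_mono {a b : B} (h : a ≤ b) (u : B) : star u * a * u ≤ star u * b * u :=
  star_left_conjugate_le_conjugate h u

theorem le_of_norm_le {x : B} (hx : IsSelfAdjoint x) {c : ℝ} (h : ‖x‖ ≤ c) :
    x ≤ algebraMap ℝ B c :=
  (IsSelfAdjoint.le_algebraMap_norm_self hx).trans (algebraMap_mono B h)

theorem smul_nonneg' {r : ℝ} (hr : 0 ≤ r) {x : B} (hx : 0 ≤ x) : 0 ≤ r • x := smul_nonneg hr hx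

theorem smul_mono {r : ℝ} (hr : 0 ≤ r) {x y : B} (h : x ≤ y) : r • x ≤ r • y :=
  smul_le_smul_of_nonneg_left h hr

theorem norm_le_alg {x : B} (hx : 0 ≤ x) {c : ℝ} (hc : 0 ≤ c) (h : x ≤ algebraMap ℝ B c) :
    ‖x‖ ≤ c :=
  (CStarAlgebra.norm_le_iff_le_algebraMap x hc hx).2 h

theorem cfc_mul3 (a : B) {f g h : ℝ → ℝ} (hf : Continuous f) (hg : Continuous g)
    (hh : Continuous h) : cfc f a * cfc g a * cfc h a = cfc (fun t => f t * g t * h t) a := by
  rw [← cfc_mul f g a hf.continuousOn hg.continuousOn,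
    ← cfc_mul (fun t => f t * g t) h a (hf.mul hg).continuousOn hh.continuousOn]

namespace Sub

theorem rfl' (a : B) : Sub a a := fun ε hε => ⟨1, by simpa using hε⟩

theorem conj (a u : B) : Sub (star u * a * u) a := fun ε hε => ⟨u, by simpa using hε⟩

theorem trans {a b c : B} (h : Sub c b) (h' : Sub b a) : Sub c a := by
  intro ε hε
  obtain ⟨w, hw⟩ := h (ε / 2) (by linarith)
  have hW : 0 < ‖w‖ * ‖w‖ + 1 := by positivity
  obtain ⟨z, hz⟩ := h' (ε / 2 / (‖w‖ * ‖w‖ + 1)) (by positivity)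
  refine ⟨z * w, ?_⟩
  have e : star (z * w) * a * (z * w) - c =
      star w * (star z * a * z - b) * w + (star w * b * w - c) := by
    rw [star_mul]; noncomm_ring
  rw [e]
  refine (norm_add_le _ _).trans_lt ?_
  have h1 : ‖star w * (star z * a * z - b) * w‖ ≤ (‖w‖ * ‖w‖) * ‖star z * a * z - b‖ :=
    calc _ ≤ ‖star w‖ * ‖star z * a * z - b‖ * ‖w‖ := norm_mul₃_le
      _ = _ := by rw [norm_star]; ring
  have h2 : (‖w‖ * ‖w‖) * ‖star z * a * z - b‖ ≤ ε / 2 := by
    refine (mul_le_mul_of_nonneg_left hz.le (by positivity)).trans ?_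
    rw [← mul_div_assoc, div_le_iff₀ hW]
    nlinarith
  linarith

theorem smul {r : ℝ} (hr : 0 ≤ r) (a : B) : Sub (r • a) a := by
  intro ε hε
  refine ⟨Real.sqrt r • (1 : B), ?_⟩
  simp [smul_smul, Real.mul_self_sqrt hr, hε]

theorem of_approx {a b : B} (h : ∀ ε : ℝ, 0 < ε → ∃ b', Sub b' a ∧ ‖b' - b‖ < ε) : Sub b a := by
  intro ε hε
  obtain ⟨b', hb', hn⟩ := h (ε / 2) (by linarith)
  obtain ⟨z, hz⟩ := hb' (ε / 2) (by linarith)
  refine ⟨z, ?_⟩
  calc ‖star z * a * z - b‖ = ‖(star z * a * z - b') + (b' - b)‖ := by rw [sub_add_sub_cancel]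
    _ ≤ _ := norm_add_le _ _
    _ < ε := by linarith

/-- `x* x ≤ a` gives `x x*` below `a`. -/
theorem of_star_mul_le {x a : B} (h : star x * x ≤ a) : Sub (x * star x) a := by
  intro ε hε
  have ha : 0 ≤ a := (star_mul_self_nonneg x).trans h
  set η := ε / 2 with hηdef
  have hη : 0 < η := by rw [hηdef]; linarith
  have hpos : ∀ t : ℝ, 0 < max t 0 + η := fun t => by positivity
  set d : ℝ → ℝ := fun t => (Real.sqrt (max t 0 + η))⁻¹ with hd
  have hdc : Continuous d :=
    Continuous.inv₀ (by fun_prop) fun t => (Real.sqrt_pos.2 (hpos t)).ne'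
  set κ : ℝ → ℝ := fun t => Real.sqrt (η / (max t 0 + η)) with hκ
  have hκc : Continuous κ := (continuous_const.div (by fun_prop) fun t => (hpos t).ne').sqrt
  set k := cfc κ a with hk
  have hks : star k = k := (cfc_predicate κ a : IsSelfAdjoint k).star_eq
  have hds : star (cfc d a) = cfc d a := (cfc_predicate d a : IsSelfAdjoint (cfc d a)).star_eq
  have e1 : 1 - cfc d a * a * cfc d a = k * k := by
    have : cfc d a * a * cfc d a = cfc (fun t => d t * t * d t) a := by
      conv_lhs => enter [1, 2]; rw [← cfc_id' ℝ a]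
      exact cfc_mul3 a hdc continuous_id hdc
    rw [this, hk, ← cfc_mul κ κ a hκc.continuousOn hκc.continuousOn, ← cfc_const_one ℝ a,
      ← cfc_sub (fun _ : ℝ => (1 : ℝ)) (fun t => d t * t * d t) a continuousOn_const
        ((hdc.mul continuous_id).mul hdc).continuousOn]
    refine cfc_congr fun t ht => ?_
    have t0 := spec_nonneg ha ht
    simp only [hd, hκ]
    rw [Real.mul_self_sqrt (div_nonneg hη.le (hpos t).le), max_eq_left t0, mul_right_comm,
      ← mul_inv, Real.mul_self_sqrt (by linarith)]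
    field_simp
    ring
  refine ⟨cfc d a * star x, ?_⟩
  have e2 : star (cfc d a * star x) * a * (cfc d a * star x) - x * star x =
      -((x * k) * star (x * k)) := by
    rw [star_mul, star_star, hds, star_mul, hks,
      show x * k * (k * star x) = x * (k * k) * star x by noncomm_ring, ← e1]
    noncomm_ring
  rw [e2, norm_neg, CStarRing.norm_self_mul_star, ← CStarRing.norm_star_mul_self, star_mul, hks,
    show k * star x * (x * k) = k * (star x * x) * k by noncomm_ring]
  have h1 : 0 ≤ k * (star x * x) * k := by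
    simpa [hks] using star_left_conjugate_nonneg (star_mul_self_nonneg x) k
  have h2 : k * (star x * x) * k ≤ k * a * k := by simpa [hks] using conj_mono h k
  refine lt_of_le_of_lt ((CStarAlgebra.norm_le_norm_of_nonneg_of_le h1 h2).trans ?_)
    (show η < ε by rw [hηdef]; linarith)
  have e3 : k * a * k = cfc (fun t => κ t * t * κ t) a := by
    conv_lhs => enter [1, 2]; rw [← cfc_id' ℝ a]
    exact cfc_mul3 a hκc continuous_id hκc
  rw [e3]
  refine norm_cfc_le hη.le fun t ht => ?_
  have t0 := spec_nonneg ha ht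
  simp only [hκ, max_eq_left t0]
  rw [mul_right_comm, Real.mul_self_sqrt (by positivity), Real.norm_of_nonneg (by positivity),
    div_mul_eq_mul_div, div_le_iff₀ (by linarith)]
  nlinarith

theorem swap (x : B) : Sub (x * star x) (star x * x) := of_star_mul_le le_rfl

theorem of_le {a b : B} (hb : 0 ≤ b) (h : b ≤ a) : Sub b a := by
  have hs : star (cfc Real.sqrt b) = cfc Real.sqrt b :=
    (cfc_predicate _ b : IsSelfAdjoint _).star_eq
  have := of_star_mul_le (x := cfc Real.sqrt b) (a := a) (by rw [hs, sqrt_mul hb]; exact h)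
  rwa [hs, sqrt_mul hb] at this

/-- `h` is below `h²`. -/
theorem self_sq {h : B} (hh : 0 ≤ h) : Sub h (h * h) := by
  intro ε hε
  set η := ε / 4 with hηdef
  have hη : 0 < η := by rw [hηdef]; linarith
  set f : ℝ → ℝ := fun t => Real.sqrt (max t 0) / (max t 0 + η) with hf
  have hfc : Continuous f := Continuous.div (by fun_prop) (by fun_prop) fun t => by positivity
  have hfs : star (cfc f h) = cfc f h := (cfc_predicate f h : IsSelfAdjoint _).star_eq
  refine ⟨cfc f h, ?_⟩
  have e : star (cfc f h) * (h * h) * cfc f h - h =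
      cfc (fun t => f t * (t * t) * f t - t) h := by
    rw [hfs]
    conv_lhs => enter [1, 1, 2]; rw [← cfc_id' ℝ h, ← cfc_mul _ _ h]
    rw [cfc_mul3 h hfc (by fun_prop : Continuous fun t : ℝ => t * t) hfc]
    conv_lhs => enter [2]; rw [← cfc_id' ℝ h]
    rw [← cfc_sub (fun t => f t * (t * t) * f t) (fun t => t) h (by fun_prop) (by fun_prop)]
  rw [e]
  refine lt_of_le_of_lt (norm_cfc_le (c := 3 * η) (by linarith) fun t ht => ?_)
    (by rw [hηdef]; linarith)
  have t0 := spec_nonneg hh ht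
  have hp : 0 < (t + η) * (t + η) := by positivity
  simp only [hf, max_eq_left t0]
  have e2 : Real.sqrt t / (t + η) * (t * t) * (Real.sqrt t / (t + η)) - t =
      -(t * (2 * t * η + η * η) / ((t + η) * (t + η))) := by
    have hs := Real.mul_self_sqrt t0
    field_simp
    rw [Real.sq_sqrt t0]
    ring
  rw [e2, norm_neg, Real.norm_of_nonneg (by positivity), div_le_iff₀ hp]
  nlinarith [mul_nonneg (mul_nonneg t0 t0) hη.le, mul_nonneg (mul_nonneg t0 hη.le) hη.le,
    mul_nonneg (mul_nonneg hη.le hη.le) hη.le]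

/-- `h²` is below `h`. -/
theorem sq_self {h : B} (hh : 0 ≤ h) : Sub (h * h) h := by
  have hs : star (cfc Real.sqrt h) = cfc Real.sqrt h :=
    (cfc_predicate _ h : IsSelfAdjoint _).star_eq
  have := conj h (cfc Real.sqrt h)
  rw [hs] at this
  conv at this => enter [1, 1, 2]; rw [← sqrt_mul hh]
  rwa [show cfc Real.sqrt h * (cfc Real.sqrt h * cfc Real.sqrt h) * cfc Real.sqrt h =
    cfc Real.sqrt h * cfc Real.sqrt h * (cfc Real.sqrt h * cfc Real.sqrt h) by noncomm_ring,
    sqrt_mul hh] at this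

/-- If `a` splits, sums of elements below `a` are below `a`. -/
theorem add {a b₁ b₂ : B} (hs : Split a) (h₁ : Sub b₁ a) (h₂ : Sub b₂ a) : Sub (b₁ + b₂) a := by
  intro ε hε
  obtain ⟨v, hv⟩ := h₁ (ε / 8) (by linarith)
  obtain ⟨w, hw⟩ := h₂ (ε / 8) (by linarith)
  set M := ‖v‖ + ‖w‖ + 1 with hM
  have hM0 : 0 < M := by positivity
  set δ := ε / (8 * (M * M)) with hδ
  obtain ⟨p, q, h11, h22, h12, h21⟩ := hs δ (by positivity)
  refine ⟨p * v + q * w, ?_⟩
  have e : star (p * v + q * w) * a * (p * v + q * w) - (b₁ + b₂) =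
      star v * (star p * a * p - a) * v + star v * (star p * a * q) * w +
      star w * (star q * a * p) * v + star w * (star q * a * q - a) * w +
      (star v * a * v - b₁) + (star w * a * w - b₂) := by
    rw [star_add, star_mul, star_mul]; noncomm_ring
  rw [e]
  have key : ∀ u u' X : B, ‖u‖ ≤ M → ‖u'‖ ≤ M → ‖X‖ < δ → ‖star u * X * u'‖ ≤ ε / 8 := by
    intro u u' X hu hu' hX
    calc ‖star u * X * u'‖ ≤ ‖star u‖ * ‖X‖ * ‖u'‖ := norm_mul₃_le
      _ ≤ M * δ * M := by rw [norm_star]; gcongr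
      _ = ε / 8 := by rw [hδ]; field_simp
  have hvM : ‖v‖ ≤ M := by rw [hM]; linarith [norm_nonneg w]
  have hwM : ‖w‖ ≤ M := by rw [hM]; linarith [norm_nonneg v]
  have k1 := key v v _ hvM hvM h11
  have k2 := key v w _ hvM hwM h12
  have k3 := key w v _ hwM hvM h21
  have k4 := key w w _ hwM hwM h22
  refine lt_of_le_of_lt ((norm_add_le _ _).trans (add_le_add ((norm_add_le _ _).trans (add_le_add
    ((norm_add_le _ _).trans (add_le_add ((norm_add_le _ _).trans (add_le_add
      ((norm_add_le _ _).trans (add_le_add k1 k2)) k3)) k4)) le_rfl)) le_rfl)) ?_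
  linarith

/-- An inequality modulo `y` puts the cut below `y`. -/
theorem cut_of_le {x y : B} {c : ℝ} (hx : IsSelfAdjoint x) (h : x ≤ algebraMap ℝ B c + y) :
    Sub (cut c x) y := by
  set u : ℝ → ℝ := fun t => Real.sqrt (max (t - c) 0) with hu
  have huc : Continuous u := by fun_prop
  have hus : star (cfc u x) = cfc u x := (cfc_predicate u x : IsSelfAdjoint _).star_eq
  have h1 : cfc u x * (x - algebraMap ℝ B c) * cfc u x ≤ star (cfc u x) * y * cfc u x := by
    rw [hus]
    simpa [hus] using conj_mono (sub_le_iff_le_add'.2 h) (cfc u x)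
  have e : cfc u x * (x - algebraMap ℝ B c) * cfc u x = cut c x * cut c x := by
    conv_lhs => enter [1, 2]; rw [← cfc_id' ℝ x, ← cfc_const c x, ← cfc_sub _ _ x]
    rw [cfc_mul3 x huc (by fun_prop : Continuous fun t : ℝ => t - c) huc, cut,
      ← cfc_mul _ _ x (by fun_prop) (by fun_prop)]
    refine cfc_congr fun t _ => ?_
    simp only [hu]
    rw [mul_right_comm, Real.mul_self_sqrt (le_max_right _ _)]
    rcases le_total (t - c) 0 with h0 | h0
    · simp [max_eq_right h0]
    · simp [max_eq_left h0]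
  rw [e] at h1
  have hp : 0 ≤ cut c x * cut c x := by
    have h2 := star_mul_self_nonneg (cut c x)
    rwa [IsSelfAdjoint.star_eq (IsSelfAdjoint.of_nonneg (cut_nonneg c x))] at h2
  exact (self_sq (cut_nonneg c x)).trans ((of_le hp h1).trans (conj y _))

/-- Comparison of two functions of one element. -/
theorem cfc_cfc {a : B} (ha : IsSelfAdjoint a) {f g : ℝ → ℝ} (hf : Continuous f)
    (hg : Continuous g) {κ : ℝ} (hκ : 0 < κ) (hf0 : ∀ t ∈ spectrum ℝ a, 0 ≤ f t)
    (h : ∀ t ∈ spectrum ℝ a, f t ≠ 0 → κ ≤ g t) : Sub (cfc f a) (cfc g a) := by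
  set w : ℝ → ℝ := fun t => Real.sqrt (f t / max (g t) κ) with hw
  have hwc : Continuous w :=
    (hf.div (hg.max continuous_const) fun t => (hκ.trans_le (le_max_right _ _)).ne').sqrt
  have hws : star (cfc w a) = cfc w a := (cfc_predicate w a : IsSelfAdjoint _).star_eq
  have e : cfc f a = star (cfc w a) * cfc g a * cfc w a := by
    rw [hws, cfc_mul3 a hwc hg hwc]
    refine cfc_congr fun t ht => ?_
    simp only [hw]
    rw [mul_right_comm, Real.mul_self_sqrt
      (div_nonneg (hf0 t ht) (hκ.le.trans (le_max_right _ _)))]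
    by_cases hz : f t = 0
    · simp [hz]
    · rw [max_eq_left (h t ht hz), div_mul_cancel₀ _ (hκ.trans_le (h t ht hz)).ne']
  rw [e]
  exact conj _ _

end Sub

end

end Vale.Agent.P133
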